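import Vale.Agent.P275.H341.Ps

/-! # P275, lowest degree, row B -/

namespace Vale.Agent.P275.R2.H673

open Filter Topology Asymptotics Vale.Agent.P275.H341

theorem pow_mono_O {m n : ℕ} (h : m ≤ n) :
    (fun x : ℝ => x ^ m) =O[atTop] fun x : ℝ => x ^ n := by
  refine IsBigO.of_bound 1 ?_
  filter_upwards [eventually_ge_atTop (1 : ℝ)] with x hx
  have h0 : (0 : ℝ) ≤ x := by linarith
  rw [one_mul, Real.norm_of_nonneg (pow_nonneg h0 _), Real.norm_of_nonneg (pow_nonneg h0 _)]
  exact pow_le_pow_right₀ hx h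

theorem rowB (a : ℝ → ℕ → ℂ) (E : ℕ) (h0 : ∀ x, a x 0 = 1)
    (ha : ∀ k, (fun x => a x k) =O[atTop] fun x : ℝ => x ^ (E * (k * (k + 1)))) (k : ℕ)
    (hk : 1 ≤ k) :
    (fun x => ld (a x) k - k * a x k) =O[atTop]
      fun x : ℝ => x ^ (E * (k * (k + 1)) - 2 * E) := by
  induction k using Nat.strong_induction_on with
  | _ k ih =>
  have hrec : ∀ x, ld (a x) k - k * a x k =
      - ∑ p ∈ (Finset.HasAntidiagonal.antidiagonal k).erase (k, 0), ld (a x) p.1 * a x p.2 := by
    intro x
    have h1 := ld_rec (h0 x) k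
    rw [← Finset.add_sum_erase _ _ (show (k, 0) ∈ Finset.HasAntidiagonal.antidiagonal k by simp)]
      at h1
    simp only [h0 x, mul_one] at h1
    rw [← h1]
    ring
  simp only [hrec]
  apply IsBigO.neg_left
  refine IsBigO.fun_sum ?_
  rintro ⟨i, j⟩ hp
  obtain ⟨hne, hpk⟩ := Finset.mem_erase.1 hp
  rw [Finset.HasAntidiagonal.mem_antidiagonal] at hpk
  dsimp only at hpk ⊢
  have hj : 1 ≤ j := by
    rcases Nat.eq_zero_or_pos j with rfl | hj
    · exact absurd (by rw [← hpk]; rfl) hne
    · exact hj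
  rcases Nat.eq_zero_or_pos i with rfl | hi
  · simp only [ld_zero (h0 _), zero_mul]
    exact isBigO_zero _ _
  · have h2 := ih i (by omega) hi
    have h3 : (fun x => ld (a x) i) =O[atTop] fun x : ℝ => x ^ (E * (i * (i + 1))) := by
      have h4 : (fun x => ld (a x) i) = fun x => (ld (a x) i - i * a x i) + i * a x i := by
        funext x
        ring
      rw [h4]
      exact (h2.trans (pow_mono_O (Nat.sub_le _ _))).add ((ha i).const_mul_left _)
    refine (h3.mul (ha j)).trans ?_
    simp only [← pow_add]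
    refine pow_mono_O ?_
    have h5 : E * (i * (i + 1)) + E * (j * (j + 1)) + 2 * E ≤ E * (k * (k + 1)) := by
      have h6 : i * (i + 1) + j * (j + 1) + 2 ≤ k * (k + 1) := by
        rw [← hpk]
        nlinarith [Nat.mul_le_mul hi hj]
      nlinarith [Nat.mul_le_mul_left E h6]
    omega

end Vale.Agent.P275.R2.H673
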